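import Vale.Agent.P181.RG.Defs
import Vale.Agent.P181.H539.Growth
import Vale.Agent.P181.H539.Upper

set_option autoImplicit false

/-!
# P181, RG: `CoreRG` from the blocks
-/

namespace Vale.Agent.P181.RG.H968

open Finset Vale.Agent.P181 Vale.Agent.P181.H280 Vale.Agent.P181.H463

/-- The balanced degrees. -/
def bal (u t : ℕ) : Fin u → ℕ := fun i => t / u + if (i : ℕ) < t % u then 1 else 0

lemma bal_le (u t : ℕ) (i j : Fin u) : bal u t i ≤ bal u t j + 1 := by
  unfold bal
  split_ifs <;> omega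

lemma bal_le_of {u t c : ℕ} (h : t ≤ u * c) (i : Fin u) : bal u t i ≤ c := by
  have h0 := Nat.div_add_mod t u
  have h1 : t / u ≤ c := Nat.div_le_of_le_mul h
  unfold bal
  split_ifs with h2
  · by_contra h3
    have h4 : c ≤ t / u := by omega
    have h5 := Nat.mul_le_mul_left u h4
    omega
  · omega

lemma sum_bal {u : ℕ} (hu : 0 < u) (t : ℕ) : ∑ i, bal u t i = t := by
  unfold bal
  rw [Finset.sum_add_distrib, Finset.sum_const, Finset.card_univ, Fintype.card_fin, smul_eq_mul]
  have h1 : ∑ i : Fin u, (if (i : ℕ) < t % u then 1 else 0) =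
      ∑ i ∈ Finset.range u, if i < t % u then 1 else 0 :=
    Fin.sum_univ_eq_sum_range (fun i => if i < t % u then 1 else 0) u
  have h2 : (Finset.range u).filter (fun i => i < t % u) = Finset.range (t % u) := by
    ext i
    rw [Finset.mem_filter, Finset.mem_range, Finset.mem_range]
    have := Nat.mod_lt t hu
    omega
  rw [h1, ← Finset.sum_filter, h2, Finset.sum_const, Finset.card_range, smul_eq_mul, mul_one]
  exact Nat.div_add_mod t u

/-- the trivial upper bound -/
theorem pleth_le_gt {a n : ℕ} (b : ℕ) {lam : Fin n → ℕ} (hlam : Antitone lam) :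
    plethMult a b n lam ≤ gt n a lam := by
  have h1 := T4.plethMult_le_pow (a := a) (b := b) (c := n) (R := 0) (m := n) (Nat.zero_add n) lam
    (∑ i, lam i) (fun i hi => absurd hi (Nat.not_lt_zero _))
  have h2 : (fun i : Fin n => lam ⟨0 + i, by have := i.isLt; omega⟩) = lam := by
    funext i
    exact congrArg lam (Fin.ext (Nat.zero_add _))
  rw [h2, Nat.zero_mul, pow_zero, one_mul] at h1
  exact h1.trans (Vale.Agent.P181.H539.finrank_HW_le_gt n a hlam)

lemma sum_cls {m f₀ : ℕ} (h : m ≤ f₀) :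
    2 * ∑ r : Fin m, (f₀ - (r : ℕ)) + m * (m - 1) = 2 * (m * f₀) := by
  have h1 : (∑ r : Fin m, (f₀ - (r : ℕ))) + ∑ r : Fin m, (r : ℕ) = m * f₀ := by
    rw [← Finset.sum_add_distrib]
    have h2 : ∀ r ∈ (univ : Finset (Fin m)), f₀ - (r : ℕ) + (r : ℕ) = f₀ := by
      intro r _
      have := r.isLt
      omega
    rw [Finset.sum_congr rfl h2, Finset.sum_const, Finset.card_univ, Fintype.card_fin,
      smul_eq_mul]
  have h3 : ∑ r : Fin m, (r : ℕ) = ∑ r ∈ range m, r := Fin.sum_univ_eq_sum_range (fun i => i) m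
  have h4 := Finset.sum_range_id_mul_two m
  rw [h3] at h1
  omega

lemma sum_top {n m : ℕ} (h : m ≤ n) (N : ℕ) :
    ∑ i : Fin n, (if (i : ℕ) < m then N else 0) = m * N := by
  have h1 : ∑ i : Fin n, (if (i : ℕ) < m then N else 0) =
      ∑ i ∈ range n, if i < m then N else 0 :=
    Fin.sum_univ_eq_sum_range (fun i => if i < m then N else 0) n
  have h2 : (range n).filter (fun i => i < m) = range m := by
    ext i
    rw [Finset.mem_filter, Finset.mem_range, Finset.mem_range]
    omega
  rw [h1, ← Finset.sum_filter, h2, Finset.sum_const, Finset.card_range, smul_eq_mul]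

lemma bal_eq {a b u m f₀ F₀ N S sf M : ℕ} (h1 : 2 * sf + M = 2 * (m * f₀)) (h2 : u + sf = b)
    (h3 : N = f₀ * a + F₀) (h4 : S + m * N = a * b) :
    2 * (u * a) = 2 * S + 2 * (m * F₀) + a * M := by
  zify at h1 h2 h3 h4 ⊢
  linear_combination -2 * h4 + 2 * (m : ℤ) * h3 + 2 * (a : ℤ) * h2 - (a : ℤ) * h1

/-- **[CORE]** -/
theorem coreRG (hMat : MatRG) (hDes : DesRG) (hHalf : HalfRG) (hPar : ParRG) (hNum : NumRG) :
    CoreRG := by
  obtain ⟨a₁, hPar⟩ := hPar
  obtain ⟨a₂, hNum⟩ := hNum
  refine ⟨max a₁ a₂, ?_⟩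
  intro a b X m n lam ha hlam hsum hna hX hXa hab hbX hm hmn hmX hrow
  have ha1 : a₁ ≤ a := le_trans (le_max_left _ _) ha
  have ha2 : a₂ ≤ a := le_trans (le_max_right _ _) ha
  have ha0 : 0 < a := lt_of_lt_of_le (by positivity) hXa
  have hX0 : 0 < X := by omega
  obtain ⟨u, D, R, f₀, F₀, T, s, N, hu, hs, huD, hub, hN1, hN2, hF, hmf, huT, hmf8, hus, hTf, hXN,
    h19, hubb⟩ := hPar a b X m ha1 hX hXa hab hbX hm hmX
  -- rows
  have hr1 : ∀ i : Fin n, (i : ℕ) < m → 2 * N ≤ lam i := by
    intro i hi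
    have h1 := (hrow i hi).1
    have h2 : X * (2 * N) ≤ X * lam i := by
      calc X * (2 * N) = 2 * X * N := by ring
        _ ≤ a ^ 2 := hXN
        _ ≤ X * lam i := h1
    exact Nat.le_of_mul_le_mul_left h2 hX0
  have hr2 : ∀ i : Fin n, (i : ℕ) < m → ∀ j : Fin n, m ≤ (j : ℕ) → 2 * N + lam j ≤ lam i := by
    intro i hi j hj
    have h1 := (hrow i hi).2 j hj
    have h2 : X * (2 * N + lam j) ≤ X * lam i := by
      calc X * (2 * N + lam j) = 2 * X * N + X * lam j := by ring
        _ ≤ a ^ 2 + X * lam j := Nat.add_le_add_right hXN _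
        _ ≤ X * lam i := h1
    exact Nat.le_of_mul_le_mul_left h2 hX0
  set η : Fin n → ℕ := fun i => lam i - if (i : ℕ) < m then N else 0 with hηd
  have hle : ∀ i : Fin n, (if (i : ℕ) < m then N else 0) ≤ lam i := by
    intro i
    split_ifs with h
    · have := hr1 i h
      omega
    · exact Nat.zero_le _
  have hηl : ∀ i : Fin n, (if (i : ℕ) < m then N else 0) + η i = lam i := by
    intro i
    have := hle i
    simp only [hηd]
    omega
  have hη : Antitone η := by
    intro i j hij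
    have h1 := hlam hij
    simp only [hηd]
    have hij' : (i : ℕ) ≤ (j : ℕ) := hij
    by_cases hj : (j : ℕ) < m
    · rw [if_pos hj, if_pos (by omega)]
      omega
    · by_cases hi : (i : ℕ) < m
      · rw [if_neg hj, if_pos hi]
        have := hr2 i hi j (by omega)
        omega
      · rw [if_neg hj, if_neg hi]
        omega
  set S := ∑ i, η i with hS
  have hSN : S + m * N = a * b := by
    rw [← hsum, ← sum_top hmn N, hS, ← Finset.sum_add_distrib]
    exact Finset.sum_congr rfl fun i _ => by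
      rw [← hηl i, Nat.add_comm]
  have hmf0 : m ≤ f₀ := by omega
  have hcls := sum_cls hmf0
  have heq := bal_eq hcls hub hN2 hSN
  -- the degrees
  have hc0 : S ≤ u * (a - (2 * D + s + 2 * T)) := by
    have h1 : 3 * (u * (2 * D + s + T)) ≤ m * F₀ :=
      Nat.mul_le_mul hm hF
    have h2 : u * (2 * D + s + 2 * T) ≤ 3 * (u * (2 * D + s + T)) := by
      calc u * (2 * D + s + 2 * T) ≤ u * (3 * (2 * D + s + T)) :=
            Nat.mul_le_mul_left _ (by omega)
        _ = 3 * (u * (2 * D + s + T)) := by ring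
    have h3 : S + u * (2 * D + s + 2 * T) ≤ u * a := by
      have h4 : 0 ≤ a * (m * (m - 1)) := Nat.zero_le _
      omega
    rw [Nat.mul_sub]
    omega
  have hca : 2 * D + s + 2 * T ≤ a := by
    by_contra hcon
    have h1 : 3 * (u * (2 * D + s + T)) ≤ m * F₀ := Nat.mul_le_mul hm hF
    have h2 : u * (2 * D + s + 2 * T) ≤ 3 * (u * (2 * D + s + T)) := by
      calc u * (2 * D + s + 2 * T) ≤ u * (3 * (2 * D + s + T)) :=
            Nat.mul_le_mul_left _ (by omega)
        _ = 3 * (u * (2 * D + s + T)) := by ring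
    have h3 : u * (2 * D + s + 2 * T) ≤ u * a := by
      have h4 : 0 ≤ a * (m * (m - 1)) := Nat.zero_le _
      omega
    exact hcon (Nat.le_of_mul_le_mul_left h3 hu)
  have hd : ∀ i, bal u S i ≤ a - (2 * D + s + 2 * T) := bal_le_of hc0
  have hda : ∀ i, bal u S i ≤ a := fun i => (hd i).trans (Nat.sub_le _ _)
  have hes : (∑ i, (a - bal u S i)) + S = u * a := by
    have h1 : (∑ i, (a - bal u S i)) + ∑ i, bal u S i = u * a := by
      rw [← Finset.sum_add_distrib, Finset.sum_congr rfl fun i _ => Nat.sub_add_cancel (hda i),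
        Finset.sum_const, Finset.card_univ, Fintype.card_fin, smul_eq_mul]
    rwa [sum_bal (by omega) S] at h1
  have hdes : RDes u m D R a (fun r => f₀ - r) (fun i => a - bal u S i) := by
    refine hDes u m D R a f₀ F₀ T s _ hm hu hs huD (by rw [← hN1, hN2]) ?_ ?_ hF hmf huT hmf8
      hus hTf
    · omega
    · intro i
      have := hd i
      omega
  have hmat := hMat n a b u m D R (fun r => f₀ - r) lam η (bal u S) hm hmn huD hub hη
    (bal_le u S) (sum_bal (by omega) S) hda hdes (by rw [← hN1]; exact hηl)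
  -- halving
  have hhalf := hHalf n m a N lam η hη hmn hna (fun i => by rw [← hηl i, Nat.add_comm]) (by
    intro i hi
    have h1 := hr1 i hi
    refine ⟨?_, ?_⟩
    · simp only [hηd]
      rw [if_pos hi]
      omega
    · intro j hj
      have h2 := hr2 i hi j hj
      simp only [hηd]
      rw [if_pos hi, if_neg (by omega)]
      omega)
  -- the final inequality
  have hm1 : m - 1 < n := by omega
  have hy : a ^ 2 ≤ 2 * X * η ⟨m - 1, hm1⟩ := by
    have h1 := (hrow ⟨m - 1, hm1⟩ (by show m - 1 < m; omega)).1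
    have h2 := hηl ⟨m - 1, hm1⟩
    rw [if_pos (by show m - 1 < m; omega)] at h2
    rw [← h2, Nat.mul_add] at h1
    have h3 : 2 * X * N = 2 * (X * N) := by ring
    have h4 : 2 * X * η ⟨m - 1, hm1⟩ = 2 * (X * η ⟨m - 1, hm1⟩) := by ring
    rw [h4]
    rw [h3] at hXN
    omega
  have hnum := hNum a b X m u S (η ⟨m - 1, hm1⟩) ha2 hX hXa hbX hm h19 hubb (by omega) hy
  have hgrow := Vale.Agent.P181.H539.gt_growth_rows (n := n) (a := a) (N := u) (l := m)
    (n0 := η ⟨m - 1, hm1⟩) hna ha0 (by omega) hη hmn (fun i hi => hη (by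
      show (i : ℕ) ≤ m - 1
      omega))
  have hup : (plethMult a b n lam : ℝ) ≤ 2 ^ (m * a) * (gt n a η : ℝ) := by
    exact_mod_cast (pleth_le_gt b hlam).trans hhalf
  have hmat' : (gt n u η : ℝ) ≤ ((S + u - 1).choose (u - 1) : ℝ) *
      ((u.factorial : ℝ) * (plethMult b a n lam : ℝ)) := by
    exact_mod_cast hmat
  have hpos : (0 : ℝ) < ((S + u - 1).choose (u - 1) : ℝ) * (u.factorial : ℝ) := by
    have h1 : 0 < (S + u - 1).choose (u - 1) := Nat.choose_pos (by omega)
    have h2 := Nat.factorial_pos u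
    positivity
  have key : (((S + u - 1).choose (u - 1) : ℝ) * (u.factorial : ℝ)) *
      (plethMult a b n lam : ℝ) ≤
      (((S + u - 1).choose (u - 1) : ℝ) * (u.factorial : ℝ)) * (plethMult b a n lam : ℝ) := by
    calc (((S + u - 1).choose (u - 1) : ℝ) * (u.factorial : ℝ)) * (plethMult a b n lam : ℝ)
        ≤ (((S + u - 1).choose (u - 1) : ℝ) * (u.factorial : ℝ)) *
          (2 ^ (m * a) * (gt n a η : ℝ)) := mul_le_mul_of_nonneg_left hup hpos.le
      _ = (gt n a η : ℝ) * (2 ^ (m * a) * ((S + u - 1).choose (u - 1) : ℝ) *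
          (u.factorial : ℝ)) := by ring
      _ ≤ (gt n a η : ℝ) * (1 + (η ⟨m - 1, hm1⟩ : ℝ) / u) ^ (m * (u - a)) :=
          mul_le_mul_of_nonneg_left hnum (Nat.cast_nonneg _)
      _ ≤ gt n u η := hgrow
      _ ≤ _ := hmat'
      _ = _ := by ring
  exact_mod_cast le_of_mul_le_mul_left key hpos

end Vale.Agent.P181.RG.H968
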